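import Vale.Agent.P011UI.Poly
import Vale.Agent.P011U.Base

/-!
Representations of the Lie algebra with integral divided powers give polynomial representations
of the simply connected group.
-/

set_option autoImplicit false
set_option linter.all false

namespace Vale.Agent.P011UI

open Matrix Finset Vale.Agent.P183CH Vale.Agent.P183CH.Chev Vale.Agent.P011U

section
variable {n m : ℕ} (R : Type) [CommRing R]

/-- block diagonal matrices -/
noncomputable def bd : (Matrix (Fin n) (Fin n) R × Matrix (Fin m) (Fin m) R) →ₐ[R]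
    Matrix (Fin (n + m)) (Fin (n + m)) R :=
  (reindexAlgEquiv R R finSumFinEquiv).toAlgHom.comp (AlgHom.ofLinearMap
    { toFun := fun x => fromBlocks x.1 0 0 x.2
      map_add' := fun x y => by simp [fromBlocks_add]
      map_smul' := fun c x => by simp [fromBlocks_smul] } fromBlocks_one
    fun x y => by simp [fromBlocks_multiply])

variable {R}

theorem bd_val (x : Matrix (Fin n) (Fin n) R × Matrix (Fin m) (Fin m) R) :
    bd R x = (fromBlocks x.1 0 0 x.2).submatrix finSumFinEquiv.symm finSumFinEquiv.symm := rfl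

theorem bd_fst (x : Matrix (Fin n) (Fin n) R × Matrix (Fin m) (Fin m) R) (a b : Fin n) :
    bd R x (a.castAdd m) (b.castAdd m) = x.1 a b := by simp [bd_val]

theorem bd_snd (x : Matrix (Fin n) (Fin n) R × Matrix (Fin m) (Fin m) R) (a b : Fin m) :
    bd R x (a.natAdd n) (b.natAdd n) = x.2 a b := by simp [bd_val]

theorem bd_ct (A : Matrix (Fin n) (Fin n) ℤ) (B : Matrix (Fin m) (Fin m) ℤ) :
    ct R (bd ℤ (A, B)) = bd R (ct R A, ct R B) := by
  simp [bd_val, ← submatrix_map, fromBlocks_map]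

theorem ex_bd {E : ℕ → Matrix (Fin n) (Fin n) ℤ} {E' : ℕ → Matrix (Fin m) (Fin m) ℤ} (h : DP E)
    (h' : DP E') (t : R) : ex (fun j => bd ℤ (E j, E' j)) t = bd R (ex E t, ex E' t) := by
  have k : ∀ {l : ℕ} {F : ℕ → Matrix (Fin l) (Fin l) ℤ}, DP F → l ≤ n + m →
      ex F t = ∑ j ∈ range (n + m), t ^ j • ct R (F j) := fun h e =>
    sum_subset (range_mono e) fun j _ hj => by rw [h.van (by simpa using hj)]; simp
  rw [k h (Nat.le_add_right _ _), k h' (Nat.le_add_left _ _), prod_mk_sum, map_sum]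
  exact sum_congr rfl fun j _ => by rw [bd_ct, ← map_smul]; rfl

end

/-- a representation of the Lie algebra with integral divided powers -/
structure Rp (D : Chev) (m : ℕ) where
  φ : D.L →ₗ[ℂ] Matrix (Fin m) (Fin m) ℂ
  lie : ∀ u v, φ ⁅u, v⁆ = φ u * φ v - φ v * φ u
  μ : Fin D.r → Fin m → ℤ
  E : Fin D.r → ℕ → Matrix (Fin m) (Fin m) ℤ
  F : Fin D.r → ℕ → Matrix (Fin m) (Fin m) ℤ
  h_eq : ∀ i, φ (D.b.h i) = diagonal fun a => (μ i a : ℂ)
  e_pow : ∀ i j, φ (D.b.e i) ^ j = j.factorial • ct ℂ (E i j)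
  f_pow : ∀ i j, φ (D.b.f i) ^ j = j.factorial • ct ℂ (F i j)

namespace Rp

variable {D : Chev} {m : ℕ} (P : Rp D m)

/-- the direct sum -/
noncomputable def sum : Chev where
  n := D.n + m
  r := D.r
  L := D.L
  simple := D.simple
  H := D.H
  b := D.b
  φ := (bd ℂ).toLinearMap.comp (D.φ.prod P.φ)
  inj := fun u v e => D.inj (Matrix.ext fun a b => (bd_fst (_, P.φ u) a b).symm.trans
    ((congrFun (congrFun e _) _).trans (bd_fst (_, P.φ v) a b)))
  lie := fun u v => by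
    show bd ℂ (_, _) = bd ℂ (_, _) * bd ℂ (_, _) - bd ℂ (_, _) * bd ℂ (_, _)
    rw [← map_mul, ← map_mul, ← map_sub, D.lie, P.lie]
    rfl
  μ := fun i => Sum.elim (D.μ i) (P.μ i) ∘ finSumFinEquiv.symm
  E := fun i j => bd ℤ (D.E i j, P.E i j)
  F := fun i j => bd ℤ (D.F i j, P.F i j)
  h_eq := fun i => by
    show bd ℂ (_, _) = _
    rw [D.h_eq, P.h_eq, bd_val, fromBlocks_diagonal, submatrix_diagonal_equiv]
    congr 1
    funext a
    simp only [Function.comp]
    cases finSumFinEquiv.symm a <;> rfl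
  e_pow := fun i j => by
    show bd ℂ (_, _) ^ j = _ • ct ℂ _
    rw [← map_pow, bd_ct, ← map_nsmul, Prod.pow_mk, D.e_pow, P.e_pow]
    rfl
  f_pow := fun i j => by
    show bd ℂ (_, _) ^ j = _ • ct ℂ _
    rw [← map_pow, bd_ct, ← map_nsmul, Prod.pow_mk, D.f_pow, P.f_pow]
    rfl

theorem dp {E : ℕ → D.Mat ℤ} {E' : ℕ → Matrix (Fin m) (Fin m) ℤ}
    (h : DP fun j => bd ℤ (E j, E' j)) : DP E' := by
  refine ⟨fun j => Matrix.ext fun a b => ?_, pow_card ⟨D.n + m, Matrix.ext fun a b => ?_⟩⟩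
  · have := h.pow j
    rw [← map_pow, ← map_nsmul] at this
    exact (bd_snd (_, _) a b).symm.trans ((congrFun (congrFun this _) _).trans (bd_snd (_, _) a b))
  · have := h.nil
    rw [← map_pow] at this
    exact (bd_snd (_, _) a b).symm.trans (congrFun (congrFun this _) _)

theorem dpe (i : Fin D.r) : DP (P.E i) := dp (dp_e (D := P.sum) i)

theorem dpf (i : Fin D.r) : DP (P.F i) := dp (dp_f (D := P.sum) i)

variable (K : Type) [Field K]

/-- the graph of the representation -/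
def gr : Subgroup (GL (Fin D.n) K × GL (Fin m) K) :=
  Subgroup.closure {x | ∃ i t, x = ((dp_e i).exU t, (P.dpe i).exU t) ∨
    x = ((dp_f i).exU t, (P.dpf i).exU t)}

/-- block diagonal units -/
noncomputable def bU : GL (Fin D.n) K × GL (Fin m) K →* GL (Fin (D.n + m)) K :=
  (Units.map (bd K).toMonoidHom).comp MulEquiv.prodUnits.symm.toMonoidHom

theorem map_gr : (P.gr K).map (bU K) = P.sum.grp K := by
  rw [gr, MonoidHom.map_closure]
  refine congrArg _ (Set.ext fun g => ⟨?_, ?_⟩)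
  · rintro ⟨_, ⟨i, t, rfl | rfl⟩, rfl⟩
    · exact ⟨i, t, Or.inl (ex_bd (dp_e i) (P.dpe i) t).symm⟩
    · exact ⟨i, t, Or.inr (ex_bd (dp_f i) (P.dpf i) t).symm⟩
  · rintro ⟨i, t, e | e⟩
    · exact ⟨_, ⟨i, t, Or.inl rfl⟩, Units.ext (e.trans (ex_bd (dp_e (D := D) i) (P.dpe i) t)).symm⟩
    · exact ⟨_, ⟨i, t, Or.inr rfl⟩, Units.ext (e.trans (ex_bd (dp_f (D := D) i) (P.dpf i) t)).symm⟩

theorem map_fst : (P.gr K).map (MonoidHom.fst _ _) = D.grp K := by
  rw [gr, MonoidHom.map_closure]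
  refine congrArg _ (Set.ext fun g => ⟨?_, ?_⟩)
  · rintro ⟨_, ⟨i, t, rfl | rfl⟩, rfl⟩
    · exact ⟨i, t, Or.inl rfl⟩
    · exact ⟨i, t, Or.inr rfl⟩
  · rintro ⟨i, t, e | e⟩
    · exact ⟨_, ⟨i, t, Or.inl rfl⟩, Units.ext e.symm⟩
    · exact ⟨_, ⟨i, t, Or.inr rfl⟩, Units.ext e.symm⟩

/-- the first block -/
noncomputable def fst : P.sum.grp K →* D.Mat K where
  toFun g := g.1.1.submatrix (Fin.castAdd m) (Fin.castAdd m)
  map_one' := submatrix_one _ (Fin.castAdd_injective _ _)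
  map_mul' := by
    rintro ⟨g, hg⟩ ⟨g', hg'⟩
    obtain ⟨x, -, rfl⟩ := (P.map_gr K).ge hg
    obtain ⟨y, -, rfl⟩ := (P.map_gr K).ge hg'
    have k : ∀ x : D.Mat K × Matrix (Fin m) (Fin m) K,
        (bd K x).submatrix (Fin.castAdd m) (Fin.castAdd m) = x.1 := fun x => Matrix.ext (bd_fst x)
    exact (congrArg (submatrix · _ _) (map_mul (bd K) _ _).symm).trans
      ((k _).trans (congrArg₂ (· * ·) (k _) (k _)).symm)

theorem blk (hD : SC D) [IsAlgClosed K] : Blk (P.sum.G K) (P.sum.nat K) P.sum.wt P.sum.EE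
    (Fin.castAdd m) (P.fst K) where
  ok := G_ok
  mat := G_mat
  inj := Fin.castAdd_injective _ _
  sub := fun _ => rfl
  ne := fun i => by
    obtain ⟨a, b, e⟩ := (rf D).exists_entry ((R_ok D).simple i) K
    refine ⟨a, b, fun c => e ?_⟩
    rw [show P.sum.EE (P.sum.R.α i) = _ from EE_e (D := P.sum) i] at c
    rw [show D.EE (D.R.α i) = _ from EE_e (D := D) i, ← c]
    exact congrArg _ (bd_fst (_, P.E i 1) a b).symm
  sc := by
    refine Eq.trans (congrArg (fun f => Submodule.span ℤ (Set.range f)) ?_) hD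
    funext a i
    simp [wt, sum]

theorem gr_pol (hD : SC D) (a b : Fin m) : ∃ p : MvPolynomial (Fin D.n × Fin D.n) K,
    ∀ x ∈ P.gr K, x.2.1 a b = MvPolynomial.eval (fun e => x.1.1 e.1 e.2) p := by
  let F := AlgebraicClosure K
  obtain ⟨p, hp⟩ := mem_PF.1 ((P.blk F hD).poly (a.natAdd _) (b.natAdd _))
  obtain ⟨π, hπ⟩ := (Algebra.linearMap K F).exists_leftInverse_of_injective
    (LinearMap.ker_eq_bot.2 (algebraMap K F).injective)
  refine ⟨∑ s ∈ p.support, MvPolynomial.monomial s (π (p.coeff s)), fun x hx => ?_⟩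
  have := hp (fm P.sum (algebraMap K F) ⟨_, (P.map_gr K).le ⟨x, hx, rfl⟩⟩)
  change algebraMap K F (bd K _ _ _) = MvPolynomial.eval (fun e => algebraMap K F
    (bd K _ (e.1.castAdd m) (e.2.castAdd m))) p at this
  simp only [bd_fst, bd_snd] at this
  have := (DFunLike.congr_fun hπ _).symm.trans (congrArg π this)
  rw [MvPolynomial.eval_eq', map_sum] at this
  rw [map_sum]
  refine this.trans (sum_congr rfl fun s _ => ?_)
  simp only [← map_pow, ← map_prod]
  rw [mul_comm, ← Algebra.smul_def, map_smul, MvPolynomial.eval_monomial, Finsupp.prod_fintype _ _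
    (by simp), smul_eq_mul, mul_comm]
  rfl

/-- **Representations of the simply connected group.** -/
theorem rep (hD : SC D) : ∃ f : D.grp K →* GL (Fin m) K,
    (∀ a b, ∃ p : MvPolynomial (Fin D.n × Fin D.n) K, ∀ g : D.grp K,
      (f g).1 a b = MvPolynomial.eval (fun e => g.1.1 e.1 e.2) p) ∧
    ∀ (g : D.grp K) i t, (g.1.1 = D.x i t → f g = (P.dpe i).exU t) ∧
      (g.1.1 = D.y i t → f g = (P.dpf i).exU t) := by
  choose p hp using P.gr_pol K hD
  have h1 : ∀ g : D.grp K, ∃ y, (g.1, y) ∈ P.gr K := fun g => by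
    obtain ⟨x, hx, e⟩ := (P.map_fst K).ge g.2
    exact ⟨x.2, e ▸ hx⟩
  have h2 : ∀ {g y y'}, (g, y) ∈ P.gr K → (g, y') ∈ P.gr K → y = y' := fun h h' =>
    Units.ext (Matrix.ext fun a b => (hp a b _ h).trans (hp a b _ h').symm)
  choose f hf using h1
  refine ⟨MonoidHom.mk' f fun g g' => h2 (hf _) (mul_mem (hf g) (hf g')),
    fun a b => ⟨p a b, fun g => hp a b _ (hf g)⟩, fun g i t => ⟨fun e => ?_, fun e => ?_⟩⟩
  · exact h2 (hf g) (Subgroup.subset_closure ⟨i, t, Or.inl (Prod.ext (Units.ext e) rfl)⟩)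
  · exact h2 (hf g) (Subgroup.subset_closure ⟨i, t, Or.inr (Prod.ext (Units.ext e) rfl)⟩)

end Rp

end Vale.Agent.P011UI
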