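import Vale.Agent.P011UI.Ldu
import Vale.Agent.P183CH1B.Mat
import Vale.Agent.P183CH2.Main

/-!
Representations of a simply connected Chevalley group are polynomial.
-/

set_option autoImplicit false
set_option linter.all false

namespace Vale.Agent.P011UI

open Matrix Finset Vale.Agent.P183CH

variable {R : RS} {k G Y : Type} [Field k] [Group G] {Γ : RG R k G} {N n : ℕ}
  {ρ : G →* Matrix (Fin N) (Fin N) k} {w : Fin N → Fin R.r → ℤ}
  {E : R.Q → ℕ → Matrix (Fin N) (Fin N) ℤ} {ι : Fin n → Fin N}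
  {ρ₁ : G →* Matrix (Fin n) (Fin n) k} {B : Subalgebra k (Y → k)}

theorem coef [Infinite k] {x y : ℕ → k}
    (h : ∀ t : k, ∑ m ∈ range N, t ^ m * x m = ∑ m ∈ range N, t ^ m * y m) {m : ℕ} (hm : m < N) :
    x m = y m := by
  have : ∑ m ∈ range N, Polynomial.monomial m (x m) = ∑ m ∈ range N, Polynomial.monomial m (y m) :=
    Polynomial.funext fun t => by simpa [Polynomial.eval_finset_sum, mul_comm] using h t
  simpa [Polynomial.finset_sum_coeff, Polynomial.coeff_monomial, hm] using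
    congrArg (Polynomial.coeff · m) this

theorem En.conj {m : ℕ} (ρ : G →* Matrix (Fin m) (Fin m) k) {g : Y → G} (h : En B fun y => ρ (g y))
    (a b : G) : En B fun y => ρ (a * g y * b) := by
  simpa only [map_mul] using ((En.const (ρ a)).mul h).mul (En.const (ρ b))

theorem tr_of {ht : Fin N → ℤ} {M : Matrix (Fin N) (Fin N) k} (h : Fl ht 1 (M - 1)) : Tr ht M :=
  ⟨RG.Mat.diag_of h, fun a b e e' => by
    have := h a b (by rwa [Matrix.sub_apply, one_apply_ne e, sub_zero])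
    omega⟩

variable (Γ ρ w E ι ρ₁) in
/-- `ρ₁` is a block of the faithful representation `ρ`, and its weights generate the lattice -/
structure Blk : Prop where
  ok : Γ.Ok
  mat : Γ.Mat ρ w E
  inj : Function.Injective ι
  sub : ∀ g, ρ₁ g = (ρ g).submatrix ι ι
  ne : ∀ i, ∃ a b, (E (R.α i) 1 (ι a) (ι b) : k) ≠ 0
  sc : Submodule.span ℤ (Set.range fun a => w (ι a)) = ⊤

namespace Blk

variable (h : Blk Γ ρ w E ι ρ₁)
include h

theorem en_sub {g : Y → G} (e : En B fun y => ρ (g y)) : En B fun y => ρ₁ (g y) := fun a b => by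
  simp only [h.sub]
  exact e (ι a) (ι b)

theorem en_x {γ : R.Q} (hγ : γ ∈ R.Φ) {c : Y → k} (hc : c ∈ B) :
    En B fun y => ρ (Γ.x γ (c y)) := fun a b => by
  convert sum_mem fun m (_ : m ∈ range N) =>
    mul_mem (pow_mem hc m) (B.algebraMap_mem (E γ m a b : k))
  simp [h.mat.x_eq γ hγ, xm, Matrix.sum_apply]

theorem ne_all [Infinite k] {γ : R.Q} (hγ : γ ∈ R.Φ) : ∃ a b, (E γ 1 (ι a) (ι b) : k) ≠ 0 := by
  obtain ⟨v, hv, i, rfl⟩ := h.mat.ok.exists_conj hγ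
  obtain ⟨g, -, hg⟩ := RG.exists_rep' (Γ := Γ) hv
  obtain ⟨c, hc⟩ := h.ok.rep_conj h.mat.ok hg (h.mat.ok.simple i)
  obtain ⟨a, b, hab⟩ := h.ne i
  by_contra hn
  push Not at hn
  have := coef (N := N) (x := fun m => (E (R.α i) m (ι a) (ι b) : k)) (y := fun m => (c : k) ^ m *
    (ρ₁ g⁻¹ * ((E (v (R.α i)) m).map (Int.cast : ℤ → k)).submatrix ι ι * ρ₁ g) a b) (m := 1)
    (fun t => ?_) (lt_of_not_ge fun e => hab (by simp [h.mat.rf.big (h.mat.ok.simple i) e]))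
  · refine hab (this.trans ?_)
    rw [show ((E (v (R.α i)) 1).map (Int.cast : ℤ → k)).submatrix ι ι = 0 from Matrix.ext hn]
    simp
  · have e : ρ₁ (Γ.x (R.α i) t) = ρ₁ g⁻¹ * ρ₁ (Γ.x (v (R.α i)) (c * t)) * ρ₁ g := by
      rw [← (hc t).1, ← map_mul, ← map_mul]
      congr 1
      group
    rw [h.sub (Γ.x _ _), h.sub (Γ.x _ _), h.mat.x_eq _ hγ, h.mat.x_eq _ (h.mat.ok.simple i)] at e
    have e := congrFun (congrFun e a) b
    simp only [xm, submatrix_apply, Matrix.sum_apply, Matrix.smul_apply, map_apply, smul_eq_mul,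
      mul_apply, mul_sum, sum_mul] at e ⊢
    rw [e, sum_congr rfl fun _ _ => sum_comm, sum_comm]
    refine sum_congr rfl fun _ _ => sum_congr rfl fun _ _ => sum_congr rfl fun _ _ => ?_
    ring

theorem en_P [Infinite k] (l : List R.Q) (h1 : l.Nodup) (h2 : ∀ γ ∈ l, γ ∈ R.Pos)
    (h3 : l.Pairwise fun γ δ => ∑ i, γ i ≤ ∑ i, δ i) (c : Y → R.Q → k)
    (e : En B fun y => ρ₁ (Γ.P l (c y))) : En B fun y => ρ (Γ.P l (c y)) := by
  induction l with
  | nil => exact En.const (ρ 1)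
  | cons γ l ih =>
    have hγ := h2 γ List.mem_cons_self
    obtain ⟨a, b, hab⟩ := h.ne_all hγ.1
    have hc : (fun y => c y γ) ∈ B := by
      convert mul_mem (sub_mem (e a b) (B.algebraMap_mem ((1 : Matrix _ _ k) (ι a) (ι b))))
        (B.algebraMap_mem (E γ 1 (ι a) (ι b) : k)⁻¹)
      rename_i y
      have := (h.mat.rf.prod_entry h.mat.ok (h.mat.ok.sum_pos hγ.1 hγ.2)
        ((γ :: l).map fun δ => (δ, c y δ)) (List.forall_mem_map.2 fun δ hδ => ⟨(h2 δ hδ).1, Or.inr (by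
          rcases List.mem_cons.1 hδ with rfl | hδ
          · exact le_rfl
          · exact List.rel_of_pairwise_cons h3 hδ)⟩)).2 (ι a) (ι b)
        (h.mat.rf.deg _ hγ.1 _ _ fun c => hab (by rw [c, Int.cast_zero]))
      rw [sum_ite_nodup ((γ :: l).map fun δ => (δ, c y δ)) (by simpa [Function.comp_def] using h1)
        (γ, c y γ) List.mem_cons_self, ← h.mat.prod_eq _ (List.forall_mem_map.2 fun δ hδ =>
          (h2 δ hδ).1), List.map_map] at this
      simp only [Pi.mul_apply, Pi.sub_apply, h.sub]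
      exact ((mul_inv_eq_iff_eq_mul₀ hab).2 this).symm
    simp only [RG.P_cons, map_mul] at e ⊢
    refine (h.en_x hγ.1 hc).mul (ih h1.of_cons (fun δ hδ => h2 δ (List.mem_cons_of_mem _ hδ))
      h3.of_cons ?_)
    convert (h.en_sub (h.en_x hγ.1 (neg_mem hc))).mul e
    rw [← mul_assoc, ← map_mul, Pi.neg_apply, h.mat.x_neg hγ.1, inv_mul_cancel, map_one, one_mul]

theorem en_U [Infinite k] {u : Y → G} (hu : ∀ y, u y ∈ Γ.U) (e : En B fun y => ρ₁ (u y)) :
    En B fun y => ρ (u y) := by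
  obtain ⟨l, h1, h2⟩ := RS.exists_list (R := R) le_rfl
  let r : R.Q → R.Q → Prop := fun γ δ => ∑ i, γ i ≤ ∑ i, δ i
  have : Std.Total r := ⟨fun _ _ => le_total _ _⟩
  have : IsTrans _ r := ⟨fun _ _ _ => le_trans⟩
  have p := List.perm_insertionSort r l
  choose c hc using fun y => h.ok.exists_P h.mat.ok RS.cl_Pos (p.nodup_iff.2 h1)
    (fun γ => p.mem_iff.trans (h2 γ)) (RG.U_eq (Γ := Γ) ▸ hu y)
  simp only [hc] at e ⊢
  exact h.en_P _ (p.nodup_iff.2 h1) (fun γ e => (h2 γ).1 (p.mem_iff.1 e))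
    (List.pairwise_insertionSort r l) c e

theorem en_V [Infinite k] {v : Y → G} (hv : ∀ y, v y ∈ Γ.V) (e : En B fun y => ρ₁ (v y)) :
    En B fun y => ρ (v y) := by
  obtain ⟨w₀, h₀⟩ := h.mat.ok.exists_Lg Set.univ
  obtain ⟨g, -, hg⟩ := RG.exists_rep' (Γ := Γ) h₀.1
  simpa [mul_assoc] using (h.en_U (fun y => RG.UJ_le _ (h.ok.Lg_V h.mat.ok hg h₀
    (RG.VJ_univ (Γ := Γ) ▸ hv y))) (e.conj ρ₁ g g⁻¹)).conj ρ g⁻¹ g

theorem hT_eq (s : Fin R.r → kˣ) :
    ρ (h.ok.hT s) = diagonal fun a => ((∏ i, s i ^ w a i : kˣ) : k) := by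
  induction s using Pi.mulSingle_induction with
  | one => simp
  | mul s s' h1 h2 => simp [h1, h2, mul_zpow, prod_mul_distrib]
  | mulSingle i t =>
    rw [h.ok.hT_single, h.mat.h_eq]
    congr 1
    funext a
    rw [prod_eq_single i (fun j _ e => by simp [e]) (by simp), Pi.mulSingle_eq_same]

theorem en_T {s : Y → Fin R.r → kˣ} (e : ∀ a, (fun y => ((∏ i, s y i ^ w (ι a) i : kˣ) : k)) ∈ B ∧
    (fun y => (((∏ i, s y i ^ w (ι a) i)⁻¹ : kˣ) : k)) ∈ B) :
    En B fun y => ρ (h.ok.hT (s y)) := by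
  have key : ∀ v : Fin R.r → ℤ, (fun y => ((∏ i, s y i ^ v i : kˣ) : k)) ∈ B ∧
      (fun y => (((∏ i, s y i ^ v i)⁻¹ : kˣ) : k)) ∈ B := fun v => by
    have hv : v ∈ Submodule.span ℤ (Set.range fun a => w (ι a)) := h.sc.ge trivial
    rw [← Submodule.mem_toAddSubgroup, Submodule.span_int_eq_addSubgroupClosure] at hv
    induction hv using AddSubgroup.closure_induction with
    | mem x hx => exact hx.elim fun a ha => ha ▸ e a
    | zero =>
      simp only [Pi.zero_apply, zpow_zero, prod_const_one, inv_one]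
      exact ⟨one_mem B, one_mem B⟩
    | add x y _ _ hx hy =>
      simp only [Pi.add_apply, zpow_add, prod_mul_distrib, mul_inv, Units.val_mul]
      exact ⟨mul_mem hx.1 hy.1, mul_mem hx.2 hy.2⟩
    | neg x _ hx => simpa only [Pi.neg_apply, _root_.zpow_neg, prod_inv_distrib, inv_inv] using hx.symm
  intro a b
  by_cases c : a = b
  · simpa only [h.hT_eq, c, diagonal_apply_eq] using (key (w b)).1
  · simp only [h.hT_eq, diagonal_apply_ne _ c]
    exact zero_mem B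

theorem tr_U {u : G} (hu : u ∈ Γ.U) : Tr (fun a => R.wht (w (ι a))) (ρ₁ u) := by
  simpa [h.sub, Function.comp_def] using (tr_of (h.mat.fl_U hu)).sub h.inj

theorem tr_V {v : G} (hv : v ∈ Γ.V) : Tr (-fun a => R.wht (w (ι a))) (ρ₁ v) := by
  simpa [h.sub, Function.comp_def, Pi.neg_def] using (tr_of (h.mat.fl_V hv)).sub h.inj

theorem det_one (g : G) : (ρ₁ g).det = 1 := by
  have hR := h.mat.ok
  refine (Subgroup.closure_le (detMonoidHom.comp ρ₁).ker).2 ?_ (h.ok.gen.ge (Subgroup.mem_top g))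
  rintro _ ⟨i, t, rfl | rfl⟩
  · exact (h.tr_U (RG.x_mem (hR.simple i) (RS.α_nonneg i) t)).det
  · exact (h.tr_V (RG.x_mem (hR.neg_mem (hR.simple i)) (neg_nonpos.2 (RS.α_nonneg i)) t)).det

/-- the big cell -/
theorem big [Infinite k] {g : G} (e : Dl (fun a => R.wht (w (ι a))) (ρ₁ g) ≠ 0) :
    ∃ v ∈ Γ.V, ∃ s, ∃ u ∈ Γ.U, g = v * h.ok.hT s * u := by
  have hR := h.mat.ok
  obtain ⟨w₀, h₀⟩ := hR.exists_Lg Set.univ
  obtain ⟨n₀, -, hn₀⟩ := RG.exists_rep' (Γ := Γ) h₀.1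
  obtain ⟨u₁, h1, n₁, w₁, h2, u, h3, h4⟩ := h.ok.bruhat hR (n₀⁻¹ * g)
  have h3 := RG.X_le_U (RS.cl_Inv _).1 h3
  have h1 := RG.VJ_le _ (h.ok.Lg_U hR hn₀ h₀ (RG.UJ_univ (Γ := Γ) ▸ h1))
  have h5 : g = n₀ * u₁ * n₀⁻¹ * (n₀ * n₁) * u := by
    rw [inv_mul_eq_iff_eq_mul.1 h4]
    group
  have h2 := hn₀.mul h2
  suffices w₀ * w₁ = 1 from
    (h.ok.exists_hT (h.ok.rep_one hR (this ▸ h2))).elim fun s hs => ⟨_, h1, s, u, h3, hs ▸ h5⟩
  refine hR.eq_one h2.mem_W fun j _ => (hR.sign' h2.mem_W (hR.simple j)).resolve_right fun c => ?_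
  have key : ∀ t, ρ₁ (Γ.x (R.α j) t) = 1 := fun t =>
    eq_one_of (N := ρ₁ (n₀ * n₁)) (h.tr_U (RG.x_mem (hR.simple j) (RS.α_nonneg j) t))
      (h.tr_V (h.ok.conj_V hR h2 (RG.x_mem (S := R.Inv _) (hR.simple j)
        ⟨hR.simple j, RS.α_nonneg j, c⟩ t)))
      (by rw [← map_mul, ← map_mul, inv_mul_cancel_right]) fun S hS => by
        have := Dl_ne e hS
        rwa [h5, map_mul, map_mul, det_bk hS (h.tr_V h1) (h.tr_U h3)] at this
  have := h.en_U (B := ⊥) (u := Γ.x (R.α j)) (RG.x_mem (hR.simple j) (RS.α_nonneg j))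
    (by simpa only [key] using En.const 1)
  refine one_ne_zero (h.ok.x_inj hR (hR.simple j) (h.mat.inj (Matrix.ext fun a b => ?_)))
  obtain ⟨x, hx⟩ := Algebra.mem_bot.1 (this a b)
  exact (congrFun hx 1).symm.trans (congrFun hx 0)

/-- The entries of `ρ` are polynomials in the entries of `ρ₁`. -/
theorem poly [IsAlgClosed k] : En (PF ρ₁) ρ := by
  refine glue (ht := fun a => R.wht (w (ι a))) ρ₁ ρ h.det_one ?_
  have : ∀ g, ∃ v ∈ Γ.V, ∃ s, ∃ u ∈ Γ.U, Dl (fun a => R.wht (w (ι a))) (ρ₁ g) ≠ 0 →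
      g = v * h.ok.hT s * u := fun g => by
    by_cases e : Dl (fun a => R.wht (w (ι a))) (ρ₁ g) = 0
    · exact ⟨1, one_mem _, 1, 1, one_mem _, fun e' => absurd e e'⟩
    · obtain ⟨v, h1, s, u, h2, h3⟩ := h.big e
      exact ⟨v, h1, s, u, h2, fun _ => h3⟩
  choose v h1 s u h2 h3 using this
  have h4 : ∀ g, Dl (fun a => R.wht (w (ι a))) (ρ₁ g) ≠ 0 → ρ₁ (v g) *
      diagonal (fun a => ((∏ i, s g i ^ w (ι a) i : kˣ) : k)) * ρ₁ (u g) = ρ₁ g := fun g e => by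
    conv_rhs => rw [h3 g e, map_mul, map_mul, h.sub (h.ok.hT _), h.hT_eq,
      submatrix_diagonal _ _ h.inj]
    rfl
  have h5 := ldu (B := Lc (PF ρ₁) _ (en_PF _).dl) (fun g => h.tr_V (h1 g)) (fun g => h.tr_U (h2 g))
    (d := fun g a => ∏ i, s g i ^ w (ι a) i)
    (fun a b => ⟨0, _, en_PF ρ₁ a b, fun g e => by simp only [h4 g e, pow_zero, one_mul]⟩) fun S hS => by
      classical
      refine ⟨1, _, prod_mem fun S' (_ : S' ∈ (univ.filter (Up fun a => R.wht (w (ι a)))).erase S) =>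
        (en_PF ρ₁).bk S', fun g e => ?_⟩
      dsimp only
      rw [h4 g e, pow_one, mul_inv_eq_iff_eq_mul₀ (Dl_ne e hS), Finset.prod_apply,
        prod_erase_mul _ _ (by simpa using hS)]
      rfl
  have h6 := ((h.en_V h1 fun a b => (h5 b).1 a).mul (h.en_T fun a => (h5 a).2.2)).mul
    (h.en_U h2 fun a b => (h5 a).2.1 b)
  intro a b
  obtain ⟨m, q, h7, h8⟩ := h6 a b
  refine ⟨m, q, h7, fun g e => ?_⟩
  rw [← h8 g e]
  dsimp only
  rw [← map_mul, ← map_mul, ← h3 g e]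

end Blk

end Vale.Agent.P011UI
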