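import Vale.Agent.P011UI.Iso
import Vale.Agent.P011UJ.Rec
import Vale.Agent.P011LB.Md

/-!
Diagonal and graph automorphisms; the special linear group.
-/

set_option autoImplicit false
set_option linter.all false

namespace Vale.Agent.P011UI

open Matrix Finset Vale.Agent.P011L Vale.Agent.P183CH Vale.Agent.P183CH.Chev Vale.Agent.P011U

variable {D D' : Chev} {K : Type} [Field K]

theorem exists_deg (D : Chev) : ∃ γ : Fin D.n → D.Q,
    ∀ a b δ, D.wt a = D.wt b + δ ᵥ* D.A → γ a = γ b + δ := by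
  let N := LinearMap.range D.A.vecMulLinear
  have : ∀ a, ∃ γ, γ ᵥ* D.A = D.wt a - (N.mkQ (D.wt a)).out := fun a =>
    (Submodule.Quotient.eq N).1 (Quotient.out_eq _).symm
  choose γ hγ using this
  refine ⟨γ, fun a b δ e => pr_inj ?_⟩
  rw [add_vecMul, hγ, hγ, show N.mkQ (D.wt a) = N.mkQ (D.wt b) from
    (Submodule.Quotient.eq N).2 ⟨δ, eq_sub_of_add_eq' e.symm⟩, e]
  abel

/-- the diagonal automorphisms are conjugations by diagonal matrices -/
theorem exists_diag (c : Fin D.r → Kˣ) : ∃ u : GL (Fin D.n) K, ∀ {δ E} (h : DP E),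
    E 1 ∈ D.Dg ℤ δ → ∀ t : K,
      u * h.exU t * u⁻¹ = h.exU (((∏ i, c i ^ δ i : Kˣ) : K) * t) := by
  obtain ⟨γ, hγ⟩ := exists_deg D
  let d : Fin D.n → Kˣ := fun a => ∏ i, c i ^ γ a i
  refine ⟨⟨diagonal fun a => d a, diagonal fun a => (d a)⁻¹, by simp [diagonal_mul_diagonal],
    by simp [diagonal_mul_diagonal]⟩, fun {δ E} h hd t => ?_⟩
  rw [mul_inv_eq_iff_eq_mul]
  refine Units.ext ?_
  show diagonal _ * ex E t = ex E _ * diagonal _
  simp only [ex, mul_sum, sum_mul]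
  refine sum_congr rfl fun m _ => ?_
  rw [mul_smul_comm, smul_mul_assoc, mul_pow, mul_comm _ (t ^ m), mul_smul,
    ← mul_smul_comm _ (ct K _), ← diagonal_smul, diag_comm (Sp.mono (DP_dg h hd m) fun a b e => ?_)]
  simp only [d, hγ a b _ e, Pi.add_apply, Pi.smul_apply, smul_eq_mul, _root_.zpow_add, prod_mul_distrib,
    mul_comm (m : ℤ), _root_.zpow_mul, zpow_natCast, prod_pow, Units.val_mul, Units.val_pow_eq_pow_val]
  exact mul_comm _ _

theorem pol_cj {n : Type} [Fintype n] [DecidableEq n] {G H : Subgroup (GL n K)} {φ : G ≃* H}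
    (h : Pol φ) {ψ : G ≃* H} (u v : Matrix n n K) (e : ∀ g, (ψ g).1.1 = u * (φ g).1.1 * v) :
    Pol ψ := fun a b => by
  refine mem_PF.1 ?_
  simp only [e]
  exact ((En.const u).mul (M := fun _ => u) (N := fun g => (φ g).1.1)
    (fun a b => mem_PF.2 (h a b))).mul (En.const v) a b

/-- conjugation by an element of the normaliser -/
theorem exists_cj {n : Type} [Fintype n] [DecidableEq n] {G : Subgroup (GL n K)} (u : GL n K)
    (h : G.map (MulAut.conj u).toMonoidHom = G) :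
    ∃ ψ : G ≃* G, Pol ψ ∧ Pol ψ.symm ∧ ∀ g, (ψ g).1 = u * g.1 * u⁻¹ := by
  have r : Pol (MulEquiv.refl G) := fun a b => mem_PF.1 (en_PF (fun g : G => g.1.1) a b)
  exact ⟨((MulAut.conj u).subgroupMap G).trans (MulEquiv.subgroupCongr h),
    pol_cj r u.1 u⁻¹.1 fun _ => rfl, pol_cj r u⁻¹.1 u.1 fun _ => rfl, fun _ => rfl⟩

theorem exists_dg (c : Fin D.r → Kˣ) : ∃ ψ : D.grp K ≃* D.grp K, Pol ψ ∧ Pol ψ.symm ∧
    (∀ γ, D.IsRt γ → ∀ t, ψ ((GG D K).x γ t) = (GG D K).x γ ((∏ i, c i ^ γ i : Kˣ) * t)) ∧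
    ∀ i t, ψ ((GG D K).x (D.α i) t) = (GG D K).x (D.α i) (c i * t) ∧
      ψ ((GG D K).x (-D.α i) t) = (GG D K).x (-D.α i) ((c i)⁻¹ * t) := by
  obtain ⟨u, hu⟩ := exists_diag (D := D) c
  have k : ∀ i, ∏ j, c j ^ D.α i j = c i := fun i => by
    rw [prod_eq_single i (fun j _ e => by simp [α, e]) (by simp)]
    simp [α]
  have k' : ∀ i, ∏ j, c j ^ (-D.α i) j = (c i)⁻¹ := fun i => by
    simp only [Pi.neg_apply, _root_.zpow_neg, prod_inv_distrib, k]
  obtain ⟨ψ, h1, h2, h3⟩ := exists_cj (G := D.grp K) u (by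
    rw [grp, MonoidHom.map_closure]
    refine congrArg _ (Set.ext fun g => ⟨?_, ?_⟩)
    · rintro ⟨g, ⟨i, t, e | e⟩, rfl⟩
      · obtain rfl : g = (dp_e i).exU t := Units.ext e
        exact ⟨i, _, Or.inl (congrArg Units.val (hu _ (dg_e i) t))⟩
      · obtain rfl : g = (dp_f i).exU t := Units.ext e
        exact ⟨i, _, Or.inr (congrArg Units.val (hu _ (dg_f i) t))⟩
    · rintro ⟨i, t, e | e⟩
      · exact ⟨_, ⟨i, _, Or.inl rfl⟩, (hu (dp_e i) (dg_e i) _).trans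
          (Units.ext ((congrArg _ (Units.mul_inv_cancel_left _ t)).trans e.symm))⟩
      · exact ⟨_, ⟨i, _, Or.inr rfl⟩, (hu (dp_f i) (dg_f i) _).trans
          (Units.ext ((congrArg _ (Units.mul_inv_cancel_left _ t)).trans e.symm))⟩)
  have h4 : ∀ γ, D.IsRt γ → ∀ t,
      ψ ((GG D K).x γ t) = (GG D K).x γ ((∏ i, c i ^ γ i : Kˣ) * t) := fun γ h t =>
    Subtype.ext (by rw [h3, GG_x h, GG_x h, hu _ h.rh.dg])
  exact ⟨ψ, h1, h2, h4, fun i t => ⟨by rw [h4 _ (rt_simple i).1.rt, k],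
    by rw [h4 _ (rt_simple i).2.1.rt, k', Units.val_inv_eq_inv_val]⟩⟩

theorem exa : EXA := fun D hD K _ c π hπ => by
  obtain ⟨φ, h1, h2, h3⟩ := iso' (D := D) π hD hD hπ K
  obtain ⟨ψ, h4, h5, -, h6⟩ := exists_dg (D := D) c
  refine ⟨ψ.trans φ, P011LB.pol_trans h4 h2, P011LB.pol_trans (φ := φ.symm) (ψ := ψ.symm) h3 h5,
    hπ, fun i u => ⟨?_, ?_⟩⟩ <;> rw [one_mul, inv_one, mul_one]
  · exact (congrArg φ (h6 i u).1).trans (pin_x h1 i _).1
  · exact (congrArg φ (h6 i u).2).trans (pin_x h1 i _).2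

theorem isa : ISA := P011UJ.isa_of iso

theorem recH : P011UH.REC := P011UJ.rec_of isoH

end Vale.Agent.P011UI
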