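import Vale.Agent.P011UI.Rep
import Vale.Agent.P011U.IF
import Vale.Agent.P011UH.IF
import Mathlib.Algebra.Lie.Basis.Prod

/-!
The isomorphism theorem for simply connected Chevalley groups.
-/

set_option autoImplicit false
set_option linter.all false

namespace Vale.Agent.P011UI

open Matrix Finset Vale.Agent.P011L Vale.Agent.P183CH Vale.Agent.P183CH.Chev Vale.Agent.P011U

theorem trans_eq {S L L' : Type} [LieRing S] [LieAlgebra ℂ S] [LieRing L] [LieAlgebra ℂ L]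
    [LieRing L'] [LieAlgebra ℂ L'] (a : S ≃ₗ⁅ℂ⁆ L) (b : S ≃ₗ⁅ℂ⁆ L') (z : S) {x : L} {y : L'}
    (h : a z = x) (h' : b z = y) : (a.symm.trans b) x = y := by
  rw [← h, ← h', LieEquiv.trans_apply, a.symm_apply_apply]

open LieAlgebra.Basis in
theorem lie_iso {D D' : Chev} (ε : Fin D.r ≃ Fin D'.r) (h : ∀ i j, D'.A (ε i) (ε j) = D.A i j) :
    ∃ ψ : D.L ≃ₗ⁅ℂ⁆ D'.L, ∀ i, ψ (D.b.e i) = D'.b.e (ε i) ∧ ψ (D.b.f i) = D'.b.f (ε i) := by
  have := D.simple
  have := D'.simple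
  have := Module.Finite.of_injective D.φ D.inj
  have := Module.Finite.of_injective D'.φ D'.inj
  refine ⟨equivOfReindex ε D.b D'.b (Matrix.ext fun i j => by
    simpa using (h (ε.symm i) (ε.symm j)).symm), fun i => ⟨?_, ?_⟩⟩
  · exact trans_eq _ _ ⟨(D.b.e i, D'.b.e (ε i)), LieSubalgebra.subset_lieSpan (Or.inl (Or.inr ⟨i, rfl⟩))⟩
      rfl rfl
  · exact trans_eq _ _ ⟨(D.b.f i, D'.b.f (ε i)), LieSubalgebra.subset_lieSpan (Or.inr ⟨i, rfl⟩)⟩ rfl rfl

variable {D D' : Chev} {K : Type} [Field K]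

theorem gen_top (D : Chev) (K : Type) [Field K] :
    Subgroup.closure {g : D.grp K | ∃ i t, g.1.1 = D.x i t ∨ g.1.1 = D.y i t} = ⊤ :=
  Subgroup.closure_closure_coe_preimage

/-- The simply connected group maps to every group with the same Cartan matrix. -/
theorem hom' (ε : Fin D.r ≃ Fin D'.r) (hD : SC D) (h : ∀ i j, D'.A (ε i) (ε j) = D.A i j)
    (K : Type) [Field K] : ∃ f : D.grp K →* D'.grp K, P011UH.Pin ε f ∧
      ∀ a b, ∃ p : MvPolynomial (Fin D.n × Fin D.n) K, ∀ g : D.grp K,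
        (f g).1.1 a b = MvPolynomial.eval (fun e => g.1.1 e.1 e.2) p := by
  obtain ⟨ψ, hψ⟩ := lie_iso ε h
  let P : Rp D D'.n :=
    { φ := D'.φ.comp ψ.toLinearEquiv.toLinearMap
      lie := fun u v => (congrArg D'.φ (ψ.map_lie u v)).trans (D'.lie _ _)
      μ := fun i => D'.μ (ε i)
      E := fun i => D'.E (ε i)
      F := fun i => D'.F (ε i)
      h_eq := fun i => (congrArg D'.φ (show ψ _ = _ by
        rw [← (D.b.sl2 i).lie_e_f, ψ.map_lie, (hψ i).1, (hψ i).2, (D'.b.sl2 _).lie_e_f])).trans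
          (D'.h_eq _)
      e_pow := fun i j => (congrArg (D'.φ · ^ j) (hψ i).1).trans (D'.e_pow _ j)
      f_pow := fun i j => (congrArg (D'.φ · ^ j) (hψ i).2).trans (D'.f_pow _ j) }
  obtain ⟨f, h1, h2⟩ := P.rep K hD
  refine ⟨f.codRestrict _ fun g => (Subgroup.closure_le ((D'.grp K).comap f)).2 ?_
    ((gen_top D K).ge (Subgroup.mem_top g)), fun g i t => ⟨fun e => congrArg Units.val
      ((h2 g i t).1 e), fun e => congrArg Units.val ((h2 g i t).2 e)⟩, h1⟩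
  rintro g ⟨i, t, e | e⟩
  · exact (congrArg (· ∈ D'.grp K) ((h2 g i t).1 e)).mpr (x_e K _ t)
  · exact (congrArg (· ∈ D'.grp K) ((h2 g i t).2 e)).mpr (x_f K _ t)

theorem hom : P011UH.HOM := fun _ _ ε hD h K _ => (hom' ε hD h K).imp fun _ h => h.1

theorem pin_id {ε : Fin D.r ≃ Fin D'.r} {f : D.grp K →* D'.grp K} {f' : D'.grp K →* D.grp K}
    (h : P011UH.Pin ε f) (h' : P011UH.Pin ε.symm f') : f'.comp f = MonoidHom.id _ :=
  MonoidHom.eq_of_eqOn_dense (gen_top D K) (by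
    rintro g ⟨i, t, e | e⟩
    · exact Subtype.ext (Units.ext (((h' _ _ t).1 ((h g i t).1 e)).trans
        (by rw [ε.symm_apply_apply]; exact e.symm)))
    · exact Subtype.ext (Units.ext (((h' _ _ t).2 ((h g i t).2 e)).trans
        (by rw [ε.symm_apply_apply]; exact e.symm))))

/-- **The isomorphism theorem.** -/
theorem iso' (ε : Fin D.r ≃ Fin D'.r) (hD : SC D) (hD' : SC D')
    (h : ∀ i j, D'.A (ε i) (ε j) = D.A i j) (K : Type) [Field K] :
    ∃ ψ : D.grp K ≃* D'.grp K, P011UH.Pin ε ψ ∧ Pol ψ ∧ Pol ψ.symm := by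
  obtain ⟨f, h1, h2⟩ := hom' ε hD h K
  obtain ⟨f', h3, h4⟩ := hom' ε.symm hD' (fun i j => by simp [← h]) K
  exact ⟨f.toMulEquiv f' (pin_id h1 h3) (pin_id h3 h1), h1, h2, h4⟩

theorem isoH : P011UH.ISO := fun _ _ ε hD hD' h K _ =>
  (iso' ε hD hD' h K).imp fun _ h => ⟨h.1, fun _ => h.2⟩

theorem pin_x {ε : Fin D.r ≃ Fin D'.r} {f : D.grp K → D'.grp K} (h : P011UH.Pin ε f)
    (i : Fin D.r) (u : K) : f ((GG D K).x (D.α i) u) = (GG D' K).x (D'.α (ε i)) u ∧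
      f ((GG D K).x (-D.α i) u) = (GG D' K).x (-D'.α (ε i)) u :=
  ⟨Subtype.ext ((Units.ext ((h _ i u).1 (congrArg Units.val (GG_e i u)))).trans (GG_e _ u).symm),
    Subtype.ext ((Units.ext ((h _ i u).2 (congrArg Units.val (GG_f i u)))).trans (GG_f _ u).symm)⟩

theorem iso : ISO := fun _ _ ε hD hD' h K _ =>
  (iso' ε hD hD' (fun i j => (h i j).symm) K).imp fun _ h => ⟨h.2.1, h.2.2, pin_x h.1⟩

end Vale.Agent.P011UI
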