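import Mathlib.RingTheory.Nullstellensatz
import Mathlib.LinearAlgebra.Matrix.Block
import Mathlib.LinearAlgebra.Matrix.Adjugate
import Mathlib.LinearAlgebra.Matrix.ToLinearEquiv

/-!
Polynomial functions of matrix entries, triangular decompositions.
-/

set_option autoImplicit false
set_option linter.all false

namespace Vale.Agent.P011UI

open Matrix Finset

variable {k Y : Type} [Field k] {n m l : Type} [Fintype n] [DecidableEq n]
  {B : Subalgebra k (Y → k)}

/-- all entries lie in `B` -/
def En (B : Subalgebra k (Y → k)) (M : Y → Matrix m l k) : Prop := ∀ a b, (fun y => M y a b) ∈ B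

theorem En.mul {M : Y → Matrix m n k} {N : Y → Matrix n l k} (h : En B M) (h' : En B N) :
    En B fun y => M y * N y := fun a b => by
  have : (fun y => (M y * N y) a b) = ∑ c, (fun y => M y a c) * fun y => N y c b := by
    funext y
    simp [mul_apply]
  rw [this]
  exact sum_mem fun c _ => mul_mem (h a c) (h' c b)

theorem En.const (A : Matrix m l k) : En B fun _ => A := fun a b => B.algebraMap_mem (A a b)

theorem En.det {M : Y → Matrix n n k} (h : En B M) : (fun y => (M y).det) ∈ B := by
  have : (fun y => (M y).det) = ∑ σ : Equiv.Perm n, ((Equiv.Perm.sign σ : ℤ) : k) •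
      ∏ i, fun y => M y (σ i) i := by
    funext y
    simp [det_apply']
  rw [this]
  exact sum_mem fun σ _ => B.smul_mem (prod_mem fun i _ => h _ _) _

theorem En.adj {M : Y → Matrix n n k} (h : En B M) : En B fun y => (M y).adjugate := fun a b => by
  simp only [adjugate_apply]
  refine En.det fun c d => ?_
  by_cases e : c = b
  · simp only [e, updateRow_self]
    exact B.algebraMap_mem _
  · simpa only [updateRow_ne e] using h c d

/-- polynomial functions of the entries -/
noncomputable def PF (M : Y → Matrix n n k) : Subalgebra k (Y → k) :=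
  (MvPolynomial.aeval fun (e : n × n) y => M y e.1 e.2).range

theorem aeval_app (M : Y → Matrix n n k) (p : MvPolynomial (n × n) k) (y : Y) :
    MvPolynomial.aeval (fun (e : n × n) y => M y e.1 e.2) p y =
      MvPolynomial.eval (fun e => M y e.1 e.2) p := by
  induction p using MvPolynomial.induction_on with
  | C a => simp
  | add p q hp hq => simp [hp, hq]
  | mul_X p e hp => simp [hp]

theorem mem_PF {M : Y → Matrix n n k} {f : Y → k} :
    f ∈ PF M ↔ ∃ p, ∀ y, f y = MvPolynomial.eval (fun e : n × n => M y e.1 e.2) p :=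
  exists_congr fun p => ⟨fun h y => (congrFun h y).symm.trans (aeval_app M p y),
    fun h => funext fun y => (aeval_app M p y).trans (h y).symm⟩

theorem en_PF (M : Y → Matrix n n k) : En (PF M) M := fun a b =>
  mem_PF.2 ⟨MvPolynomial.X (a, b), fun y => by simp⟩

theorem En.eval {M : Y → Matrix n n k} (h : En B M) (p : MvPolynomial (n × n) k) :
    (fun y => MvPolynomial.eval (fun e : n × n => M y e.1 e.2) p) ∈ B := by
  induction p using MvPolynomial.induction_on with
  | C a => simp only [MvPolynomial.eval_C]; exact B.algebraMap_mem a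
  | add p q hp hq => simp only [map_add]; exact add_mem hp hq
  | mul_X p e hp => simp only [map_mul, MvPolynomial.eval_X]; exact mul_mem hp (h e.1 e.2)

/-- unitriangular matrices -/
def Tr (ht : n → ℤ) (M : Matrix n n k) : Prop :=
  (∀ a, M a a = 1) ∧ ∀ a b, a ≠ b → M a b ≠ 0 → ht b < ht a

theorem Tr.sub {ht : m → ℤ} [Fintype m] [DecidableEq m] {M : Matrix m m k} (h : Tr ht M) {ι : n → m}
    (hι : Function.Injective ι) : Tr (ht ∘ ι) (M.submatrix ι ι) :=
  ⟨fun a => h.1 _, fun a b e e' => h.2 _ _ (hι.ne e) e'⟩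

theorem Tr.det {ht : n → ℤ} {M : Matrix n n k} (h : Tr ht M) : M.det = 1 := by
  have : M.BlockTriangular (-ht) := fun a b e => by
    by_contra c
    have := h.2 a b (fun e' => by simp [e'] at e) c
    simp only [Pi.neg_apply] at e
    omega
  rw [this.det]
  refine prod_eq_one fun j _ => (congrArg _ (Matrix.ext fun a b => ?_)).trans det_one
  by_cases e : a = b
  · rw [e, one_apply_eq]
    exact h.1 _
  · rw [one_apply_ne e]
    by_contra c
    have := h.2 a b (fun e' => e (Subtype.ext e')) c
    have h1 := a.2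
    have h2 := b.2
    simp only [Pi.neg_apply] at h1 h2
    omega

/-- upper sets -/
def Up (ht : n → ℤ) (S : Finset n) : Prop := ∀ a ∈ S, ∀ b, ht a < ht b → b ∈ S

/-- principal submatrices -/
def bk (S : Finset n) (M : Matrix n n k) : Matrix S S k := M.submatrix Subtype.val Subtype.val

variable {ht : n → ℤ} {S : Finset n}

theorem bk_left (hS : Up ht S) {L : Matrix n n k} (h : Tr (-ht) L) (M : Matrix n n k) :
    bk S (L * M) = bk S L * bk S M := by
  ext a b
  simp only [bk, submatrix_apply, mul_apply]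
  rw [sum_coe_sort S fun c => L a c * M c b]
  refine (sum_subset (subset_univ _) fun c _ hc => mul_eq_zero_of_left ?_ _).symm
  by_contra e
  exact hc (hS a a.2 c (by simpa using h.2 a c (fun e' => hc (e' ▸ a.2)) e))

theorem bk_right (hS : Up ht S) {R : Matrix n n k} (h : Tr ht R) (M : Matrix n n k) :
    bk S (M * R) = bk S M * bk S R := by
  ext a b
  simp only [bk, submatrix_apply, mul_apply]
  rw [sum_coe_sort S fun c => M a c * R c b]
  refine (sum_subset (subset_univ _) fun c _ hc => mul_eq_zero_of_right _ ?_).symm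
  by_contra e
  exact hc (hS b b.2 c (h.2 c b (fun e' => hc (e' ▸ b.2)) e))

theorem det_bk (hS : Up ht S) {L R : Matrix n n k} (h : Tr (-ht) L) (h' : Tr ht R)
    (M : Matrix n n k) : (bk S (L * M * R)).det = (bk S M).det := by
  rw [bk_right hS h', bk_left hS h, det_mul, det_mul, bk, (h.sub Subtype.val_injective).det, bk, bk,
    (h'.sub Subtype.val_injective).det, one_mul, mul_one]

theorem det_bk_diag (S : Finset n) (d : n → k) : (bk S (diagonal d)).det = ∏ a ∈ S, d a := by
  rw [bk, submatrix_diagonal _ _ Subtype.val_injective, det_diagonal]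
  exact prod_coe_sort S d

theorem ht_ind (ht : n → ℤ) {P : n → Prop} (h : ∀ a, (∀ b, ht a < ht b → P b) → P a) (a : n) :
    P a :=
  (@Finite.wellFounded_of_trans_of_irrefl _ _ (fun b a => ht a < ht b)
    ⟨fun _ _ _ e e' => e'.trans e⟩ ⟨fun _ => lt_irrefl _⟩).induction a h

theorem up_gt (a : n) : Up ht (univ.filter fun c => ht a < ht c) := fun b hb c e => by
  simp only [mem_filter, mem_univ, true_and] at hb ⊢
  omega

theorem ldu {L R : Y → Matrix n n k} {d : Y → n → kˣ} (hL : ∀ y, Tr (-ht) (L y))
    (hR : ∀ y, Tr ht (R y)) (h : En B fun y => L y * diagonal (fun a => (d y a : k)) * R y)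
    (hi : ∀ S, Up ht S → (fun y => (bk S (L y * diagonal (fun a => (d y a : k)) * R y)).det⁻¹) ∈ B)
    (a : n) : (∀ b, (fun y => L y b a) ∈ B) ∧ (∀ b, (fun y => R y a b) ∈ B) ∧
      (fun y => (d y a : k)) ∈ B ∧ (fun y => ((d y a)⁻¹ : kˣ) : Y → k) ∈ B := by
  induction a using ht_ind ht with
  | h a ih =>
  let T := univ.filter fun c => ht a < ht c
  have ha : a ∉ T := by simp [T]
  have key : ∀ b c, (b = a ∨ c = a) → (fun y => L y b a * d y a * R y a c) ∈ B := fun b c e => by
    have : (fun y => L y b a * d y a * R y a c) =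
        (fun y => (L y * diagonal (fun a => (d y a : k)) * R y) b c) -
          ∑ x ∈ T, (fun y => L y b x) * (fun y => (d y x : k)) * fun y => R y x c := by
      funext y
      simp only [Pi.sub_apply, Finset.sum_apply, Pi.mul_apply]
      rw [eq_sub_iff_add_eq, mul_apply, ← sum_insert (f := fun x => L y b x * d y x * R y x c) ha]
      simp only [mul_diagonal]
      refine sum_subset (subset_univ _) fun x _ hx => ?_
      simp only [T, mem_insert, mem_filter, mem_univ, true_and, not_or] at hx
      by_contra e'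
      rcases e with rfl | rfl
      · exact hx.2 (by simpa using (hL y).2 b x (Ne.symm hx.1) fun c => e' (by simp [c]))
      · exact hx.2 ((hR y).2 x c hx.1 fun c => e' (by simp [c]))
    rw [this]
    refine sub_mem (h b c) (sum_mem fun x hx => ?_)
    obtain ⟨h1, h2, h3, -⟩ := ih x (mem_filter.1 hx).2
    exact mul_mem (mul_mem (h1 b) h3) (h2 c)
  have h4 : (fun y => ((d y a)⁻¹ : kˣ) : Y → k) ∈ B := by
    have hS : Up ht (insert a T) := fun b hb c e => by
      simp only [T, mem_insert, mem_filter, mem_univ, true_and] at hb ⊢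
      rcases hb with rfl | hb <;> exact Or.inr (by omega)
    convert mul_mem (hi _ hS) (prod_mem fun x (hx : x ∈ T) => (ih x (mem_filter.1 hx).2).2.2.1)
    rename_i y
    have : ∏ x ∈ T, (d y x : k) ≠ 0 := prod_ne_zero_iff.2 fun x _ => (d y x).ne_zero
    simp only [Pi.mul_apply, Finset.prod_apply]
    rw [det_bk hS (hL y) (hR y), det_bk_diag, prod_insert ha, mul_inv, inv_mul_cancel_right₀ this,
      Units.val_inv_eq_inv_val]
  refine ⟨fun b => ?_, fun b => ?_, ?_, h4⟩
  · convert mul_mem (key b a (Or.inr rfl)) h4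
    simp [(hR _).1]
  · convert mul_mem h4 (key a b (Or.inl rfl))
    simp [(hL _).1]
  · simpa [(hR _).1, (hL _).1] using key a a (Or.inl rfl)

theorem eq_one_of {N u v : Matrix n n k} (hu : Tr ht u) (hv : Tr (-ht) v) (e : N * u = v * N)
    (hN : ∀ S, Up ht S → (bk S N).det ≠ 0) : u = 1 := by
  have key : ∀ b, (∀ a, a ≠ b → u a b = 0) ∧ ∀ c, c ≠ b → v b c = 0 := fun b => by
    induction b using ht_ind ht with
    | h b ih =>
    let T := univ.filter fun c => ht b < ht c
    have hb : b ∉ T := by simp [T]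
    have m : ∀ {c}, c ∈ T ↔ ht b < ht c := by simp [T]
    have h1 : bk T N *ᵥ (fun a => u a b) = 0 := funext fun a => by
      have := congrFun (congrFun e a) b
      rw [mul_apply, mul_apply, sum_eq_single (f := fun j => v a j * N j b) a.1
        (fun c _ hc => by rw [(ih a (m.1 a.2)).2 c hc, zero_mul]) (by simp), hv.1, one_mul, ← sum_subset (subset_univ (insert b T)) fun c _ hc => by
          rw [mem_insert, not_or] at hc
          exact mul_eq_zero_of_right _ (not_not.1 fun e' => hc.2 (m.2 (hu.2 c b hc.1 e'))),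
        sum_insert hb, hu.1, mul_one, add_eq_left] at this
      exact (sum_coe_sort T fun c => N a c * u c b).trans this
    have h2 : (fun a : T => v b a) ᵥ* bk T N = 0 := funext fun a : T => by
      have := congrFun (congrFun e b) a
      rw [mul_apply, mul_apply, sum_eq_single (f := fun j => N b j * u j a) a.1
        (fun c _ hc => by rw [(ih a (m.1 a.2)).1 c hc, mul_zero]) (by simp), hu.1, mul_one, ← sum_subset (subset_univ (insert b T)) fun c _ hc => by
          rw [mem_insert, not_or] at hc
          exact mul_eq_zero_of_left (not_not.1 fun e' => hc.2 (m.2 (by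
            simpa using hv.2 b c (Ne.symm hc.1) e'))) _,
        sum_insert hb, hv.1, one_mul, left_eq_add] at this
      exact (sum_coe_sort T fun c => v b c * N c a).trans this
    have h3 := eq_zero_of_mulVec_eq_zero (hN T (up_gt b)) h1
    have h4 := eq_zero_of_vecMul_eq_zero (hN T (up_gt b)) h2
    exact ⟨fun a ha => not_not.1 fun e' => e' (congrFun h3 ⟨a, m.2 (hu.2 a b ha e')⟩),
      fun a ha => not_not.1 fun e' => e' (congrFun h4 ⟨a, m.2 (by simpa using hv.2 b a ha.symm e')⟩)⟩
  ext a b
  by_cases c : a = b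
  · rw [c, hu.1, one_apply_eq]
  · rw [(key b).1 a c, one_apply_ne c]

open Classical in
/-- the product of the principal minors -/
noncomputable def Dl (ht : n → ℤ) (M : Matrix n n k) : k :=
  ∏ S ∈ univ.filter (Up ht), (bk S M).det

theorem Dl_one : Dl ht (1 : Matrix n n k) = 1 :=
  prod_eq_one fun S _ => by rw [← diagonal_one, det_bk_diag, prod_const_one]

theorem Dl_ne {M : Matrix n n k} (h : Dl ht M ≠ 0) (hS : Up ht S) : (bk S M).det ≠ 0 := by
  classical
  exact prod_ne_zero_iff.1 h S (by simpa using hS)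

theorem En.bk {M : Y → Matrix n n k} (h : En B M) (S : Finset n) :
    (fun y => (bk S (M y)).det) ∈ B := En.det fun a b => h _ _

theorem En.dl {M : Y → Matrix n n k} (h : En B M) : (fun y => Dl ht (M y)) ∈ B := by
  classical
  convert prod_mem fun S (_ : S ∈ univ.filter (Up ht)) => h.bk S
  simp [Dl]

/-- functions with a power of `δ` as the denominator -/
def Lc (B : Subalgebra k (Y → k)) (δ : Y → k) (h : δ ∈ B) : Subalgebra k (Y → k) where
  carrier := {f | ∃ N : ℕ, ∃ q ∈ B, ∀ y, δ y ≠ 0 → δ y ^ N * f y = q y}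
  mul_mem' := fun ⟨N, q, h1, h2⟩ ⟨N', q', h1', h2'⟩ => ⟨N + N', _, mul_mem h1 h1', fun y e => by
    rw [Pi.mul_apply, Pi.mul_apply, ← h2 y e, ← h2' y e]
    ring⟩
  add_mem' := fun ⟨N, q, h1, h2⟩ ⟨N', q', h1', h2'⟩ => ⟨N + N', _,
    add_mem (mul_mem (pow_mem h N') h1) (mul_mem (pow_mem h N) h1'), fun y e => by
      simp only [Pi.mul_apply, Pi.add_apply, Pi.pow_apply]
      rw [← h2 y e, ← h2' y e]
      ring⟩
  algebraMap_mem' := fun c => ⟨0, _, B.algebraMap_mem c, fun y _ => by simp⟩

/-- A homomorphism which is regular on the big cell is polynomial. -/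
theorem glue [IsAlgClosed k] {G : Type} [Group G] [Fintype m] [DecidableEq m]
    (ρ₁ : G →* Matrix n n k) (ρ : G →* Matrix m m k) (h1 : ∀ g, (ρ₁ g).det = 1)
    (h : En (Lc (PF ρ₁) (fun g => Dl ht (ρ₁ g)) (en_PF _).dl) ρ) : En (PF ρ₁) ρ := by
  let ev := MvPolynomial.aeval (R := k) fun (e : n × n) g => ρ₁ g e.1 e.2
  let I : Ideal (MvPolynomial (n × n) k) :=
    { carrier := {p | ∀ a b, (ev p * fun g => ρ g a b) ∈ PF ρ₁}
      zero_mem' := fun a b => by simpa using zero_mem _
      add_mem' := fun hp hq a b => by simpa [add_mul] using add_mem (hp a b) (hq a b)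
      smul_mem' := fun c p hp a b => by
        simpa [mul_assoc] using mul_mem (⟨c, rfl⟩ : ev c ∈ PF ρ₁) (hp a b) }
  by_cases hI : I = ⊤
  · exact fun a b => by simpa using (hI.ge (Submodule.mem_top (x := 1))) a b
  obtain ⟨J, hJ, hle⟩ := I.exists_le_maximal hI
  obtain ⟨z, rfl⟩ := MvPolynomial.isMaximal_iff_eq_vanishingIdeal_singleton.1 hJ
  let Z : Matrix n n k := fun a b => z (a, b)
  have hz : ∀ f ∈ PF (id : Matrix n n k → _),
      (∀ a b, (fun g => f (ρ₁ g) * ρ g a b) ∈ PF ρ₁) → f Z = 0 := fun f hf h => by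
    obtain ⟨p, hp⟩ := mem_PF.1 hf
    have := (MvPolynomial.mem_vanishingIdeal_singleton_iff _ _).1 (hle (show p ∈ I from fun a b => by
      convert h a b using 1
      funext g
      rw [hp, Pi.mul_apply, aeval_app]
      rfl))
    rwa [hp]
  have hz0 : ∀ f ∈ PF (id : Matrix n n k → _), (∀ g, f (ρ₁ g) = 0) → f Z = 0 := fun f hf h =>
    hz f hf fun a b => by simp only [h, zero_mul]; exact zero_mem (PF ρ₁)
  choose N q h2 h3 using h
  have h4 : ∀ g, Dl ht (ρ₁ g * Z) = 0 := fun g => by
    refine pow_eq_zero_iff (n := ∑ e : m × m, N e.1 e.2 + 1) (by simp) |>.1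
      (hz (fun x => Dl ht (ρ₁ g * x) ^ _) (pow_mem ((En.const _).mul (en_PF id)).dl _) ?_)
    have : En (PF ρ₁) fun x => Dl ht (ρ₁ g * ρ₁ x) ^ (∑ e : m × m, N e.1 e.2 + 1) • ρ (g * x) := by
      intro a b
      obtain ⟨j, hj⟩ := Nat.exists_eq_add_of_le (single_le_sum (f := fun e : m × m => N e.1 e.2)
        (fun _ _ => Nat.zero_le _) (mem_univ (a, b)))
      obtain ⟨p, hp⟩ := mem_PF.1 (h2 a b)
      have e := (En.const (B := PF ρ₁) (ρ₁ g)).mul (en_PF ρ₁)
      convert mul_mem (pow_mem (e.dl (ht := ht)) (j + 1)) (e.eval p)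
      rename_i x
      simp only [Pi.mul_apply, Pi.pow_apply, ← map_mul, ← hp]
      by_cases c : Dl ht (ρ₁ (g * x)) = 0
      · simp [-map_mul, c]
      · rw [← h3 a b _ c, hj, Matrix.smul_apply, smul_eq_mul]
        ring
    intro a b
    convert ((En.const (ρ g⁻¹)).mul this) a b
    simp [← map_mul]
  have h5 := hz0 (fun x => Dl ht (x.adjugate * Z)) ((en_PF id).adj.mul (En.const _)).dl fun g => by
    rw [← h4 g⁻¹]
    congr 2
    rw [← mul_one (adjugate _), ← map_one ρ₁, ← mul_inv_cancel g, map_mul, ← mul_assoc, adjugate_mul,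
      h1, one_smul, one_mul]
  have h6 := hz0 (fun x => x.det - 1) (sub_mem (en_PF id).det (one_mem _)) fun g => by simp [h1]
  simp only [adjugate_mul, sub_eq_zero.1 h6, one_smul, Dl_one] at h5
  exact absurd h5 one_ne_zero

end Vale.Agent.P011UI
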